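import Vale.Agent.P284Z.D.Defs
import Mathlib.LinearAlgebra.Multilinear.Curry

/-!
# P284Z, block D: determinant identities
-/

set_option linter.all false

open scoped InnerProductSpace
open Finset Matrix

noncomputable section

namespace Vale.Agent.P284Z.Ang

/-! ### comparison of coefficients, Cauchy-Binet -/

theorem coef_ext {α β : Type} [Fintype α] [Fintype β] (w : α → ℕ) (w' : β → ℕ) (f : α → ℂ)
    (g : β → ℂ) (h : ∀ s : ℂ, s ≠ 0 → 1 + s ≠ 0 → ∑ x, s ^ w x * f x = ∑ y, s ^ w' y * g y)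
    (k : ℕ) : ∑ x with w x = k, f x = ∑ y with w' y = k, g y := by
  have key : ∑ x, Polynomial.monomial (w x) (f x) = ∑ y, Polynomial.monomial (w' y) (g y) := by
    refine Polynomial.eq_of_infinite_eval_eq _ _ (Set.Infinite.mono (s := ({0, -1} : Set ℂ)ᶜ)
      (fun s hs => ?_) (Set.toFinite _).infinite_compl)
    simp only [Set.mem_compl_iff, Set.mem_insert_iff, Set.mem_singleton_iff, not_or] at hs
    simp only [Set.mem_setOf_eq, Polynomial.eval_finset_sum, Polynomial.eval_monomial, mul_comm]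
    simpa only [mul_comm] using h s hs.1 fun e => hs.2 (by linear_combination e)
  have := congrArg (fun p => Polynomial.coeff p k) key
  simpa only [Polynomial.finset_sum_coeff, Polynomial.coeff_monomial, sum_filter] using this

theorem det_mul_sum {m N : Type} [Fintype m] [DecidableEq m] [Fintype N] (A : Matrix m N ℂ)
    (B : Matrix N m ℂ) :
    (A * B).det = ∑ f : m → N, (∏ i, A i (f i)) * (B.submatrix f id).det := by
  have h : A * B = fun i => ∑ n, A i n • B n := by
    ext i j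
    simp [mul_apply, Finset.sum_apply]
  have h1 := (detRowAlternating : (m → ℂ) [⋀^m]→ₗ[ℂ] ℂ).toMultilinearMap.map_sum
    fun i n => A i n • B n
  rw [h]
  refine h1.trans (sum_congr rfl fun f _ => ?_)
  exact (detRowAlternating : (m → ℂ) [⋀^m]→ₗ[ℂ] ℂ).toMultilinearMap.map_smul_univ
    (fun i => A i (f i)) fun i => B (f i)

theorem cauchy_binet {m N : Type} [Fintype m] [DecidableEq m] [Fintype N] (A : Matrix m N ℂ)
    (B : Matrix N m ℂ) : ((Fintype.card m).factorial : ℂ) * (A * B).det =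
      ∑ f : m → N, (A.submatrix id f).det * (B.submatrix f id).det := by
  have h : ∀ σ : Equiv.Perm m, (A * B).det = ∑ f : m → N,
      (Equiv.Perm.sign σ * ∏ i, A i (f (σ i))) * (B.submatrix f id).det := fun σ => by
    rw [det_mul_sum, ← (Equiv.arrowCongr σ (Equiv.refl N)).symm.sum_comp]
    refine sum_congr rfl fun f _ => ?_
    have e : B.submatrix ((Equiv.arrowCongr σ (Equiv.refl N)).symm f) id =
        (B.submatrix f id).submatrix σ id := rfl
    rw [e, det_permute]
    simp only [Equiv.arrowCongr_symm, Equiv.refl_symm, Equiv.arrowCongr_apply, Equiv.coe_refl,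
      Equiv.symm_symm, Function.comp, id]
    ring
  rw [← Fintype.card_perm, ← nsmul_eq_mul, ← card_univ, ← sum_const, sum_congr rfl fun σ _ => h σ,
    sum_comm]
  refine sum_congr rfl fun f _ => ?_
  rw [← sum_mul, ← det_transpose (A.submatrix id f), det_apply' (A.submatrix id f)ᵀ]
  rfl

theorem cb_diag {m N : Type} [Fintype m] [DecidableEq m] [Fintype N] [DecidableEq N]
    (X Y : Matrix N m ℂ) (w : N → ℂ) :
    ((Fintype.card m).factorial : ℂ) * (Xᴴ * (diagonal w * Y)).det = ∑ f : m → N,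
      (∏ i, w (f i)) * (star (X.submatrix f id).det * (Y.submatrix f id).det) := by
  rw [cauchy_binet]
  refine sum_congr rfl fun f _ => ?_
  have e : (diagonal w * Y).submatrix f id = Matrix.of fun i j => w (f i) * Y.submatrix f id i j := by
    ext i j
    simp
  rw [e, det_mul_column, ← det_conjTranspose, conjTranspose_submatrix]
  ring

theorem cs_sum {α : Type} (T : Finset α) (x y : α → ℂ) :
    ‖∑ f ∈ T, star (x f) * y f‖ ^ 2 ≤ (∑ f ∈ T, ‖x f‖ ^ 2) * ∑ f ∈ T, ‖y f‖ ^ 2 := by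
  refine le_trans ?_ (sum_mul_sq_le_sq_mul_sq T (fun f => ‖x f‖) fun f => ‖y f‖)
  refine pow_le_pow_left₀ (norm_nonneg _) ((norm_sum_le _ _).trans_eq ?_) 2
  exact sum_congr rfl fun f _ => by rw [norm_mul, norm_star]

theorem sum_star_self {α : Type} (T : Finset α) (x : α → ℂ) :
    ∑ f ∈ T, star (x f) * x f = ((∑ f ∈ T, ‖x f‖ ^ 2 : ℝ) : ℂ) := by
  push_cast
  exact sum_congr rfl fun f _ => Complex.conj_mul' (x f)

/-! ### the generating determinant -/

variable {H H' : Type} [NormedAddCommGroup H] [InnerProductSpace ℂ H] [NormedAddCommGroup H']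
  [InnerProductSpace ℂ H'] {ι : Type} [Fintype ι] [DecidableEq ι]

/-- the generating determinant -/
def D3 (s : ℂ) (a e b a' b' : ι → H) : ℂ :=
  (fromBlocks (gm a a') (gm a b') (s • gm e a') (s • gm e b' + gm b b')).det

/-- one term -/
def MT (T : Finset ι) (a e b a' b' : ι → H) : ℂ :=
  (fromBlocks (gm a a') (gm a b') (gm (cut T e) a') (gm (cut T e) b' + gm (cut Tᶜ b) b')).det

theorem B3_eq (k : ℕ) (a e b a' b' : ι → H) :
    B3 k a e b a' b' = ∑ T : Finset ι with T.card = k, MT T a e b a' b' := by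
  rw [B3, powersetCard_eq_filter, powerset_univ]
  rfl

theorem D3_eq (s : ℂ) (a e b a' b' : ι → H) :
    D3 s a e b a' b' = ∑ T : Finset ι, s ^ T.card * MT T a e b a' b' := by
  let F := (detRowAlternating : (ι ⊕ ι → ℂ) [⋀^ι ⊕ ι]→ₗ[ℂ] ℂ).toMultilinearMap.currySum
    fun i => Sum.elim (gm a a' i) (gm a b' i)
  let U : ι → ι ⊕ ι → ℂ := fun i => Sum.elim (gm e a' i) (gm e b' i)
  let V : ι → ι ⊕ ι → ℂ := fun i => Sum.elim 0 (gm b b' i)
  have hF : ∀ C D : Matrix ι ι ℂ, (fromBlocks (gm a a') (gm a b') C D).det =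
      F fun i => Sum.elim (C i) (D i) := fun C D => by
    refine congrArg det ?_
    ext (i | i) (j | j) <;> rfl
  have h1 : D3 s a e b a' b' = F ((fun i => s • U i) + V) := by
    refine (hF _ _).trans (congrArg F ?_)
    ext i (j | j) <;> simp [U, V]
  rw [h1, F.map_add_univ]
  refine sum_congr rfl fun T _ => ?_
  have h2 : T.piecewise (fun i => s • U i) V =
      T.piecewise (fun i => s • T.piecewise U V i) (T.piecewise U V) := by
    funext i
    by_cases h : i ∈ T <;> simp [h]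
  rw [h2, F.map_piecewise_smul (fun _ => s), prod_const, smul_eq_mul, MT, hF]
  congr 2
  ext i (j | j) <;> by_cases h : i ∈ T <;> simp [h, U, V, gm, cut]

theorem B3_ext {a e b a' b' : ι → H} {x y z x' z' : ι → H'} (c : ℂ)
    (h : ∀ s : ℂ, s ≠ 0 → 1 + s ≠ 0 → D3 s a e b a' b' = c * D3 s x y z x' z') (k : ℕ) :
    B3 k a e b a' b' = c * B3 k x y z x' z' := by
  rw [B3_eq, B3_eq, mul_sum]
  refine coef_ext _ _ _ _ (fun s h1 h2 => ?_) k
  rw [← D3_eq, h s h1 h2, D3_eq, mul_sum]
  exact sum_congr rfl fun T _ => by ring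

theorem gm_act (M M' : Matrix ι ι ℂ) (a a' : ι → H) :
    gm (act M a) (act M' a') = Mᵀᴴ * gm a a' * M'ᵀ := by
  ext i j
  simp only [gm, act, of_apply, sum_inner, inner_sum, inner_smul_left, inner_smul_right, mul_apply,
    conjTranspose_apply, transpose_apply, sum_mul, mul_sum]
  exact sum_congr rfl fun l _ => sum_congr rfl fun m _ => by simp only [RCLike.star_def]; ring

theorem act_one (a : ι → H) : act 1 a = a := by
  funext i
  simp [act, one_apply]

theorem gm_act_left (M : Matrix ι ι ℂ) (a a' : ι → H) : gm (act M a) a' = Mᵀᴴ * gm a a' := by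
  simpa [act_one] using gm_act M 1 a a'

theorem gm_add_left (a b a' : ι → H) : gm (a + b) a' = gm a a' + gm b a' := by
  ext i j
  simp [gm, inner_add_left]

theorem gm_conj (a a' : ι → H) : (gm a a')ᴴ = gm a' a := by
  ext i j
  simp [gm]

theorem D3_act (s : ℂ) (M N M' N' : Matrix ι ι ℂ) (a e b a' b' : ι → H) :
    D3 s (act M a) (act N e) (act N b) (act M' a') (act N' b') =
      star M.det * star N.det * (M'.det * N'.det) * D3 s a e b a' b' := by
  have h : fromBlocks (gm (act M a) (act M' a')) (gm (act M a) (act N' b'))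
      (s • gm (act N e) (act M' a')) (s • gm (act N e) (act N' b') + gm (act N b) (act N' b')) =
      fromBlocks Mᵀᴴ 0 0 Nᵀᴴ * fromBlocks (gm a a') (gm a b') (s • gm e a')
        (s • gm e b' + gm b b') * fromBlocks M'ᵀ 0 0 N'ᵀ := by
    simp [gm_act, fromBlocks_multiply, Matrix.mul_add, Matrix.add_mul]
  rw [D3, h, det_mul, det_mul, det_fromBlocks_zero₂₁, det_fromBlocks_zero₂₁, det_conjTranspose,
    det_conjTranspose, det_transpose, det_transpose, det_transpose, det_transpose, D3]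
  ring

theorem D3_shear (s : ℂ) (L : Matrix ι ι ℂ) (a e b a' b' : ι → H) :
    D3 s a (e + act L a) b a' b' = D3 s a e b a' b' := by
  have h : fromBlocks (gm a a') (gm a b') (s • gm (e + act L a) a')
      (s • gm (e + act L a) b' + gm b b') = fromBlocks 1 0 (s • Lᵀᴴ) 1 *
        fromBlocks (gm a a') (gm a b') (s • gm e a') (s • gm e b' + gm b b') := by
    simp [gm_add_left, gm_act_left, fromBlocks_multiply, add_comm, add_left_comm, add_assoc]
  rw [D3, h, det_mul, det_fromBlocks_zero₁₂, det_one, one_mul, one_mul, D3]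

theorem det_scale (A B C D : Matrix ι ι ℂ) (s t : ℂ) :
    (fromBlocks (s • A) (s • B) (t • C) (t • D)).det =
      s ^ Fintype.card ι * t ^ Fintype.card ι * (fromBlocks A B C D).det := by
  have h : fromBlocks (s • A) (s • B) (t • C) (t • D) =
      fromBlocks (s • (1 : Matrix ι ι ℂ)) 0 0 (t • (1 : Matrix ι ι ℂ)) * fromBlocks A B C D := by
    simp [fromBlocks_multiply]
  rw [h, det_mul, det_fromBlocks_zero₂₁, det_smul, det_smul, det_one, mul_one, mul_one]

theorem det_scale' (A B C D : Matrix ι ι ℂ) (s t : ℂ) :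
    (fromBlocks (s • A) (t • B) (s • C) (t • D)).det =
      s ^ Fintype.card ι * t ^ Fintype.card ι * (fromBlocks A B C D).det := by
  rw [← det_transpose, fromBlocks_transpose, transpose_smul, transpose_smul, transpose_smul,
    transpose_smul, det_scale, ← fromBlocks_transpose, det_transpose]

theorem D3_symm {s : ℂ} (h0 : s ≠ 0) (h1 : 1 + s ≠ 0) (a b a' b' : ι → H) :
    D3 s a b b a' b' = D3 s b a a b' a' := by
  have e : ∀ B : Matrix ι ι ℂ, s • B + B = (1 + s) • B := fun B => by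
    rw [add_smul, one_smul, add_comm]
  rw [D3, D3, e, e, ← fromBlocks_submatrix_sum_swap_sum_swap ((1 + s) • gm a a')]
  rw [show (Sum.swap : ι ⊕ ι → ι ⊕ ι) = Equiv.sumComm ι ι from rfl, det_submatrix_equiv_self]
  have h2 := det_scale (gm a a') (gm a b') (s • gm b a') ((1 + s) • gm b b') ((1 + s) * s) 1
  have h3 := det_scale ((1 + s) • gm a a') (s • gm a b') (gm b a') (gm b b') 1 s
  have h4 := det_scale' ((1 + s) • gm a a') (s • gm a b') (s • gm b a') (s • gm b b') s (1 + s)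
  have h5 := det_scale (((1 + s) * s) • gm a a') (((1 + s) * s) • gm a b') (s • gm b a')
    ((1 + s) • gm b b') 1 s
  simp only [smul_smul, one_mul, mul_one, one_pow] at h2 h3 h4 h5
  rw [mul_comm s (1 + s)] at h4 h5
  rw [h5, h2, h3, mul_pow] at h4
  have h6 : s ^ Fintype.card ι ≠ 0 := pow_ne_zero _ h0
  have h7 : (1 + s) ^ Fintype.card ι ≠ 0 := pow_ne_zero _ h1
  refine mul_left_cancel₀ (mul_ne_zero h6 (mul_ne_zero h7 h6)) ?_
  linear_combination h4

theorem Bk_symm (k : ℕ) (a b a' b' : ι → H) : Bk k a b a' b' = Bk k b a b' a' :=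
  (B3_ext 1 (fun s h0 h1 => by rw [D3_symm h0 h1, one_mul]) k).trans (one_mul _)

theorem Bk_act (k : ℕ) (M N M' N' : Matrix ι ι ℂ) (a b a' b' : ι → H) :
    Bk k (act M a) (act N b) (act M' a') (act N' b') =
      star M.det * star N.det * (M'.det * N'.det) * Bk k a b a' b' :=
  B3_ext _ (fun s _ _ => D3_act s M N M' N' a b b a' b') k

theorem B3_shear (k : ℕ) (L : Matrix ι ι ℂ) (a e b a' b' : ι → H) :
    B3 k a (e + act L a) b a' b' = B3 k a e b a' b' :=
  (B3_ext 1 (fun s _ _ => by rw [D3_shear, one_mul]) k).trans (one_mul _)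

theorem exists_act {a c : ι → H} (h : ∀ i, c i ∈ sp a) : ∃ L, c = act L a := by
  choose L hL using fun i => (Submodule.mem_span_range_iff_exists_fun ℂ).1 (h i)
  exact ⟨Matrix.of L, funext fun i => (hL i).symm⟩

theorem mem_sp (a : ι → H) (i : ι) : a i ∈ sp a := Submodule.subset_span ⟨i, rfl⟩

theorem act_mem (L : Matrix ι ι ℂ) (a : ι → H) (i : ι) : act L a i ∈ sp a :=
  Submodule.sum_mem _ fun j _ => Submodule.smul_mem _ _ (mem_sp a j)

theorem Bk_shear (k : ℕ) {a b e : ι → H} (h : ∀ i, b i - e i ∈ sp a) (a' b' : ι → H) :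
    Bk k a b a' b' = B3 k a e b a' b' := by
  obtain ⟨L, hL⟩ := exists_act h
  rw [← B3_shear k L a e, ← hL, Bk]
  congr 1
  funext i
  simp

theorem gm_map (U : H →ₗᵢ[ℂ] H') (a a' : ι → H) :
    gm (fun i => U (a i)) (fun i => U (a' i)) = gm a a' := by
  ext i j
  simp [gm]

theorem Bk_map (k : ℕ) (U : H →ₗᵢ[ℂ] H') (a b a' b' : ι → H) :
    Bk k (fun i => U (a i)) (fun i => U (b i)) (fun i => U (a' i)) (fun i => U (b' i)) =
      Bk k a b a' b' :=
  (B3_ext 1 (fun s _ _ => by simp only [D3, gm_map, one_mul]) k).trans (one_mul _)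

/-! ### coordinates and the Cauchy-Schwarz inequality -/

theorem exists_co {κ : Type} [Fintype κ] (x : κ → ι → H) : ∃ (N : ℕ) (co : κ → Matrix (Fin N) ι ℂ),
    ∀ k l, gm (x k) (x l) = (co k)ᴴ * co l := by
  let V := Submodule.span ℂ (Set.range fun p : κ × ι => x p.1 p.2)
  haveI : FiniteDimensional ℂ V := FiniteDimensional.span_of_finite ℂ (Set.finite_range _)
  let e := stdOrthonormalBasis ℂ V
  let y : κ → ι → V := fun k i => ⟨x k i, Submodule.subset_span ⟨(k, i), rfl⟩⟩
  refine ⟨_, fun k => Matrix.of fun n i => ⟪e n, y k i⟫_ℂ, fun k l => ?_⟩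
  ext i j
  refine Eq.trans (e.sum_inner_mul_inner (y k i) (y l j)).symm ?_
  simp [mul_apply]

theorem det_gm_cb (a a' : ι → H) : ∃ (α : Type) (_ : Fintype α) (x y : α → ℂ),
    ((Fintype.card ι).factorial : ℂ) * (gm a a').det = ∑ f, star (x f) * y f ∧
    ((Fintype.card ι).factorial : ℂ) * (gm a a).det = ∑ f, star (x f) * x f ∧
    ((Fintype.card ι).factorial : ℂ) * (gm a' a').det = ∑ f, star (y f) * y f := by
  obtain ⟨N, co, h⟩ := exists_co ![a, a']
  have key : ∀ k l, ((Fintype.card ι).factorial : ℂ) * (gm (![a, a'] k) (![a, a'] l)).det =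
      ∑ f : ι → Fin N, star ((co k).submatrix f id).det * ((co l).submatrix f id).det :=
    fun k l => by simpa [h] using cb_diag (co k) (co l) fun _ => 1
  exact ⟨ι → Fin N, inferInstance, _, _, key 0 1, key 0 0, key 1 1⟩

theorem Bk_cb (k : ℕ) (a b a' b' : ι → H) : ∃ (α : Type) (T : Finset α) (x y : α → ℂ),
    ((Fintype.card (ι ⊕ ι)).factorial : ℂ) * Bk k a b a' b' = ∑ f ∈ T, star (x f) * y f ∧
    ((Fintype.card (ι ⊕ ι)).factorial : ℂ) * Bk k a b a b = ∑ f ∈ T, star (x f) * x f ∧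
    ((Fintype.card (ι ⊕ ι)).factorial : ℂ) * Bk k a' b' a' b' = ∑ f ∈ T, star (y f) * y f := by
  obtain ⟨N, co, h⟩ := exists_co ![a, b, a', b']
  let X : Fin 4 → Fin 4 → Matrix (Fin N ⊕ Fin N) (ι ⊕ ι) ℂ := fun p q =>
    fromBlocks (co p) (co q) 0 (co q)
  let w : (ι ⊕ ι → Fin N ⊕ Fin N) → ℕ := fun f => ∑ i, Sum.elim (fun _ => 1) (fun _ => 0) (f i)
  have key : ∀ p q p' q', ((Fintype.card (ι ⊕ ι)).factorial : ℂ) *
      Bk k (![a, b, a', b'] p) (![a, b, a', b'] q) (![a, b, a', b'] p') (![a, b, a', b'] q') =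
      ∑ f with w f = k + Fintype.card ι,
        star ((X p q).submatrix f id).det * ((X p' q').submatrix f id).det := by
    intro p q p' q'
    rw [Bk, B3_eq, mul_sum, ← coef_ext (fun T : Finset ι => T.card + Fintype.card ι) w
      (fun T => ((Fintype.card (ι ⊕ ι)).factorial : ℂ) * MT T (![a, b, a', b'] p)
        (![a, b, a', b'] q) (![a, b, a', b'] q) (![a, b, a', b'] p') (![a, b, a', b'] q'))]
    · simp only [add_left_inj]
    intro s _ _
    have h1 := cb_diag (X p q) (X p' q') (Sum.elim (fun _ => s) fun _ => 1)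
    have h2 : (X p q)ᴴ * (diagonal (Sum.elim (fun _ => s) fun _ => 1) * X p' q') =
        fromBlocks (s • ((co p)ᴴ * co p')) (s • ((co p)ᴴ * co q')) ((1 : ℂ) • s • ((co q)ᴴ * co p'))
          ((1 : ℂ) • (s • ((co q)ᴴ * co q') + (co q)ᴴ * co q')) := by
      rw [← fromBlocks_diagonal, ← smul_one_eq_diagonal, diagonal_one]
      simp [X, fromBlocks_conjTranspose, fromBlocks_multiply]
    rw [h2, det_scale, ← h, ← h, ← h, ← h, ← D3, D3_eq, mul_sum, mul_sum] at h1
    refine Eq.trans (sum_congr rfl fun T _ => by ring) (h1.trans (sum_congr rfl fun f _ => ?_))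
    rw [← prod_pow_eq_pow_sum]
    refine congrArg (· * _) (prod_congr rfl fun i _ => ?_)
    cases f i <;> simp
  exact ⟨_, _, _, _, key 0 1 2 3, key 0 1 0 1, key 2 3 2 3⟩

theorem cs_of {α : Type} {T : Finset α} {x y : α → ℂ} {n : ℕ} (hn : n ≠ 0) {p q r : ℂ}
    (h : (n : ℂ) * p = ∑ f ∈ T, star (x f) * y f ∧ (n : ℂ) * q = ∑ f ∈ T, star (x f) * x f ∧
      (n : ℂ) * r = ∑ f ∈ T, star (y f) * y f) :
    q = q.re ∧ 0 ≤ q.re ∧ ‖p‖ ^ 2 ≤ q.re * r.re := by
  obtain ⟨h1, h2, h3⟩ := h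
  have h0 : (0 : ℝ) < n := by positivity
  rw [sum_star_self] at h2 h3
  have e2 := congrArg Complex.re h2
  have e3 := congrArg Complex.re h3
  rw [Complex.ofReal_re, ← Complex.ofReal_natCast, Complex.re_ofReal_mul] at e2 e3
  have h4 := cs_sum T x y
  rw [← h1, ← e2, ← e3, norm_mul, Complex.norm_natCast] at h4
  refine ⟨mul_left_cancel₀ (Nat.cast_ne_zero.2 hn : (n : ℂ) ≠ 0) ?_, ?_, ?_⟩
  · rw [h2, ← e2]
    push_cast
    rfl
  · exact (mul_nonneg_iff_of_pos_left h0).1 (e2 ▸ sum_nonneg fun _ _ => sq_nonneg _)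
  · exact le_of_mul_le_mul_left (by linarith) (mul_pos h0 h0)

theorem det_gm_self (a : ι → H) : (gm a a).det = G a := by
  obtain ⟨α, _, x, y, h⟩ := det_gm_cb a a
  exact (cs_of (Nat.factorial_ne_zero _) h).1

theorem G_nonneg (a : ι → H) : 0 ≤ G a := by
  obtain ⟨α, _, x, y, h⟩ := det_gm_cb a a
  exact (cs_of (Nat.factorial_ne_zero _) h).2.1

theorem norm_det_gm_sq (a a' : ι → H) : ‖(gm a a').det‖ ^ 2 ≤ G a * G a' := by
  obtain ⟨α, _, x, y, h⟩ := det_gm_cb a a'
  exact (cs_of (Nat.factorial_ne_zero _) h).2.2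

theorem Bk_self (k : ℕ) (a b : ι → H) : Bk k a b a b = Om k a b := by
  obtain ⟨α, _, x, y, h⟩ := Bk_cb k a b a b
  exact (cs_of (Nat.factorial_ne_zero _) h).1

theorem Om_nonneg (k : ℕ) (a b : ι → H) : 0 ≤ Om k a b := by
  obtain ⟨α, _, x, y, h⟩ := Bk_cb k a b a b
  exact (cs_of (Nat.factorial_ne_zero _) h).2.1

theorem norm_Bk_sq (k : ℕ) (a b a' b' : ι → H) :
    ‖Bk k a b a' b'‖ ^ 2 ≤ Om k a b * Om k a' b' := by
  obtain ⟨α, _, x, y, h⟩ := Bk_cb k a b a' b'
  exact (cs_of (Nat.factorial_ne_zero _) h).2.2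

theorem G_pos_iff {a : ι → H} : 0 < G a ↔ LinearIndependent ℂ a := by
  rw [← det_gram_ne_zero_iff_linearIndependent, (G_nonneg a).lt_iff_ne']
  change _ ↔ (gm a a).det ≠ 0
  rw [det_gm_self, Complex.ofReal_ne_zero]

theorem G_eq_zero {a : ι → H} (h : ¬ LinearIndependent ℂ a) : G a = 0 :=
  le_antisymm (not_lt.1 (mt G_pos_iff.1 h)) (G_nonneg a)

theorem G_act (M : Matrix ι ι ℂ) (a : ι → H) : G (act M a) = ‖M.det‖ ^ 2 * G a := by
  apply Complex.ofReal_injective
  push_cast
  rw [← det_gm_self, ← det_gm_self, gm_act, det_mul, det_mul, det_conjTranspose, det_transpose,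
    ← Complex.conj_mul', RCLike.star_def]
  ring

theorem act_smul_one (c : ℂ) (a : ι → H) : act (c • 1) a = fun i => c • a i := by
  funext i
  simp [act, one_apply]

theorem G_smul (c : ℂ) (a : ι → H) :
    G (fun i => c • a i) = ‖c‖ ^ (2 * Fintype.card ι) * G a := by
  rw [← act_smul_one, G_act, det_smul, det_one, mul_one, norm_pow, ← pow_mul, mul_comm 2]

theorem G_map (U : H →ₗᵢ[ℂ] H') (a : ι → H) : G (fun i => U (a i)) = G a := by
  rw [G, gm_map, G]

theorem Om_symm (k : ℕ) (a b : ι → H) : Om k a b = Om k b a := by rw [Om, Bk_symm, Om]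

theorem Om_act (k : ℕ) (M N : Matrix ι ι ℂ) (a b : ι → H) :
    Om k (act M a) (act N b) = ‖M.det‖ ^ 2 * ‖N.det‖ ^ 2 * Om k a b := by
  apply Complex.ofReal_injective
  push_cast
  rw [← Bk_self, ← Bk_self, Bk_act, ← Complex.conj_mul', ← Complex.conj_mul', RCLike.star_def]
  ring

theorem Om_map (k : ℕ) (U : H →ₗᵢ[ℂ] H') (a b : ι → H) :
    Om k (fun i => U (a i)) (fun i => U (b i)) = Om k a b := by rw [Om, Bk_map, Om]

theorem Om_sp_left {a a' : ι → H} (k : ℕ) (h : sp a' ≤ sp a) (b : ι → H) :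
    Om k a' b * G a = Om k a b * G a' := by
  obtain ⟨L, rfl⟩ := exists_act fun i => h (mem_sp a' i)
  have := Om_act k L 1 a b
  rw [act_one, det_one, norm_one] at this
  rw [this, G_act]
  ring

theorem Om_sp_right {b b' : ι → H} (k : ℕ) (a : ι → H) (h : sp b' ≤ sp b) :
    Om k a b' * G b = Om k a b * G b' := by
  rw [Om_symm, Om_sp_left k h, Om_symm]

theorem Om_zero (a b : ι → H) : Om 0 a b = G a * G b := by
  apply Complex.ofReal_injective
  have h1 : cut (∅ : Finset ι) b = fun _ => 0 := funext fun i => by simp [cut]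
  have h2 : cut (∅ : Finset ι)ᶜ b = b := funext fun i => by simp [cut]
  have h3 : ∀ c : ι → H, gm (fun _ => 0) c = 0 := fun c => by
    ext i j
    simp [gm]
  push_cast
  rw [← Bk_self, Bk, B3, powersetCard_zero, sum_singleton, h1, h2, h3, h3, zero_add,
    det_fromBlocks_zero₂₁, det_gm_self, det_gm_self]

end Vale.Agent.P284Z.Ang
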