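import Mathlib.Analysis.InnerProductSpace.GramMatrix
import Mathlib.Analysis.InnerProductSpace.Projection.FiniteDimensional
import Mathlib.Algebra.Polynomial.Roots

/-!
# P284Z, block D: principal angles between two finite families of vectors (definitions)
-/

set_option linter.all false

open scoped InnerProductSpace
open Finset Matrix

noncomputable section

namespace Vale.Agent.P284Z.Ang

variable {H : Type} [NormedAddCommGroup H] [InnerProductSpace ℂ H] {ι : Type} [Fintype ι]
  [DecidableEq ι]

/-- the matrix of the scalar products -/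
def gm (a a' : ι → H) : Matrix ι ι ℂ := Matrix.of fun i j => ⟪a i, a' j⟫_ℂ

/-- the Gram determinant -/
def G (a : ι → H) : ℝ := (gm a a).det.re

/-- the vectors with index outside of `T` are replaced by zero -/
def cut (T : Finset ι) (e : ι → H) : ι → H := fun i => if i ∈ T then e i else 0

/-- the coefficient of `s ^ k` in the determinant with block rows `⟪a, a'⟫, ⟪a, b'⟫` and
`s ⟪e, a'⟫, s ⟪e, b'⟫ + ⟪b, b'⟫` -/
def B3 (k : ℕ) (a e b a' b' : ι → H) : ℂ := ∑ T ∈ powersetCard k (univ : Finset ι),
  (fromBlocks (gm a a') (gm a b') (gm (cut T e) a') (gm (cut T e) b' + gm (cut Tᶜ b) b')).det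

/-- the polarisation of `Om`: antiholomorphic in `a`, `b`, holomorphic in `a'`, `b'` -/
def Bk (k : ℕ) (a b a' b' : ι → H) : ℂ := B3 k a b b a' b'

/-- `G a * G b * e_k (σ ^ 2)`, where `σ` are the sines of the principal angles -/
def Om (k : ℕ) (a b : ι → H) : ℝ := (Bk k a b a b).re

/-- change of basis -/
def act (M : Matrix ι ι ℂ) (a : ι → H) : ι → H := fun i => ∑ j, M i j • a j

/-- the span -/
def sp (a : ι → H) : Submodule ℂ H := Submodule.span ℂ (Set.range a)

instance (a : ι → H) : FiniteDimensional ℂ (sp a) :=
  FiniteDimensional.span_of_finite ℂ (Set.finite_range a)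

instance (a : ι → H) : (sp a).HasOrthogonalProjection :=
  haveI := FiniteDimensional.complete ℂ (sp a)
  inferInstance

/-- the orthogonal projection on the span -/
def Pj (a : ι → H) : H →L[ℂ] H := (sp a).starProjection

/-- the square of the norm of the projection on the span -/
def pr (a : ι → H) (v : H) : ℝ := ‖Pj a v‖ ^ 2

end Vale.Agent.P284Z.Ang
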