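import Vale.Agent.P284Z.Defs
import Vale.Agent.P284Z.D.Alg

/-!
# P284Z, block D: the order of the pole
-/

set_option linter.all false

open scoped InnerProductSpace
open Finset Matrix

noncomputable section

namespace Vale.Agent.P284Z.Ang

theorem norm_det_le {n : Type} [Fintype n] [DecidableEq n] {A : Matrix n n ℂ} {ρ : n → ℝ}
    (h : ∀ i j, ‖A i j‖ ≤ ρ i) : ‖A.det‖ ≤ (Fintype.card n).factorial * ∏ i, ρ i := by
  rw [det_apply', ← Fintype.card_perm, ← nsmul_eq_mul, ← card_univ]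
  refine (norm_sum_le _ _).trans (sum_le_card_nsmul _ _ _ fun σ _ => ?_)
  rw [norm_mul, norm_prod, ← Equiv.prod_comp σ ρ]
  have h1 : ‖((Equiv.Perm.sign σ : ℤ) : ℂ)‖ = 1 := by
    rcases Int.units_eq_one_or (Equiv.Perm.sign σ) with e | e <;> simp [e]
  rw [h1, one_mul]
  exact prod_le_prod (fun _ _ => norm_nonneg _) fun i _ => h _ _

theorem Om_pole (r : ℕ) (M : ℝ) : ∃ K : ℝ, 0 ≤ K ∧ ∀ {H : Type} [NormedAddCommGroup H]
    [InnerProductSpace ℂ H] {ι : Type} [Fintype ι] [DecidableEq ι], Fintype.card ι = r →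
    ∀ (k N : ℕ) (s : ι → ℕ), (∀ T : Finset ι, T.card = k → N ≤ ∑ i ∈ T, s i) →
    ∀ (ε : ℝ), 0 ≤ ε → ε ≤ 1 → ∀ a b : ι → H, (∀ i, ‖a i‖ ≤ M) → (∀ i, ‖b i‖ ≤ M) →
    (∀ i, ∃ c ∈ sp a, ‖b i - c‖ ≤ M * ε ^ s i) → Om k a b ≤ K * ε ^ N := by
  refine ⟨2 ^ r * ((r + r).factorial * ((M * M) ^ r * (M * M) ^ r)), by
    have := mul_self_nonneg M
    positivity, ?_⟩
  intro H _ _ ι _ _ hr k N s hN ε h0 h1 a b ha hb hc
  choose c hc1 hc2 using hc
  have hM := mul_self_nonneg M
  have key : ∀ {x y : H} {t : ℝ}, ‖x‖ ≤ M * t → ‖y‖ ≤ M → ‖⟪x, y⟫_ℂ‖ ≤ M * M * t :=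
    fun {x y t} hx hy => (norm_inner_le_norm x y).trans ((mul_le_mul hx hy (norm_nonneg _)
      ((norm_nonneg _).trans hx)).trans_eq (by ring))
  rw [Om, Bk_shear k (e := fun i => b i - c i) fun i => by simpa using hc1 i, B3_eq]
  refine (Complex.re_le_norm _).trans ((norm_sum_le _ _).trans ((sum_le_card_nsmul _ _
    ((r + r).factorial * ((M * M) ^ r * (M * M) ^ r) * ε ^ N) fun T hT => ?_).trans ?_))
  · refine (norm_det_le (ρ := Sum.elim (fun _ => M * M * 1)
      fun i => M * M * if i ∈ T then ε ^ s i else 1) ?_).trans ?_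
    · rintro (i | i) (j | j)
      · exact key (by simpa using ha i) (ha j)
      · exact key (by simpa using ha i) (hb j)
      · by_cases hi : i ∈ T
        · simpa [gm, cut, hi] using key (hc2 i) (ha j)
        · simpa [gm, cut, hi] using hM
      · by_cases hi : i ∈ T
        · simpa [gm, cut, hi] using key (hc2 i) (hb j)
        · simpa [gm, cut, hi] using key (t := 1) (by simpa using hb i) (hb j)
    · simp only [Fintype.card_sum, Fintype.prod_sum_type, Sum.elim_inl, Sum.elim_inr, mul_one,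
        prod_mul_distrib, prod_const, card_univ, hr, prod_ite_mem, univ_inter, prod_pow_eq_pow_sum]
      rw [← mul_pow, ← mul_assoc ((M * M) ^ r), ← mul_assoc]
      exact mul_le_mul_of_nonneg_left (pow_le_pow_of_le_one h0 h1 (hN T (mem_filter.1 hT).2))
        (by positivity)
  · rw [nsmul_eq_mul, mul_assoc (2 ^ r)]
    refine mul_le_mul_of_nonneg_right ?_ (by positivity)
    exact_mod_cast (card_le_univ _).trans_eq (hr ▸ Fintype.card_finset)

theorem sq_le_of_fib {α : Type} (T : Finset α) (s : α → ℕ) (h1 : ∀ a, 1 ≤ s a) {N : ℕ}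
    (hN : ∀ m, #{a ∈ T | s a = m} ≤ N) : T.card ^ 2 ≤ 4 * N * ∑ a ∈ T, s a := by
  classical
  rcases T.eq_empty_or_nonempty with rfl | ⟨a, ha⟩
  · simp
  have h0 : 0 < N := lt_of_lt_of_le (card_pos.2 ⟨a, by simpa using ha⟩) (hN (s a))
  set t := T.card / (2 * N) with ht
  have h2 : #{a ∈ T | s a ≤ t} ≤ N * #(Icc 1 t) := card_le_mul_card_image_of_maps_to (f := s)
    (fun a ha => mem_Icc.2 ⟨h1 a, (mem_filter.1 ha).2⟩) N fun m _ =>
      (card_le_card (filter_subset_filter _ (filter_subset _ _))).trans (hN m)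
  have h3 : #{a ∈ T | ¬ s a ≤ t} • (t + 1) ≤ ∑ a ∈ T, s a :=
    (card_nsmul_le_sum _ _ _ fun a ha => not_le.1 (mem_filter.1 ha).2).trans
      (sum_le_sum_of_subset (filter_subset _ _))
  have h4 := card_filter_add_card_filter_not (s := T) fun a => s a ≤ t
  have h5 : 2 * N * t ≤ T.card := Nat.mul_div_le _ _
  have h6 : T.card < 2 * N * (t + 1) := Nat.lt_mul_div_succ _ (by omega)
  rw [Nat.card_Icc, add_tsub_cancel_right] at h2
  rw [smul_eq_mul] at h3
  have h7 : T.card ≤ 2 * #{a ∈ T | ¬ s a ≤ t} := by nlinarith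
  calc T.card ^ 2 ≤ 2 * N * (t + 1) * (2 * #{a ∈ T | ¬ s a ≤ t}) := by
        rw [sq]
        exact Nat.mul_le_mul h6.le h7
    _ = 4 * N * (#{a ∈ T | ¬ s a ≤ t} * (t + 1)) := by ring
    _ ≤ _ := Nat.mul_le_mul_left _ h3

theorem idx_top {p j : ℕ} [Fintype (Idx p j)] :
    #{α : Idx p j | ∑ i, α.1 i = j} * j ≤ p * Fintype.card (Idx p j) := by
  classical
  have h1 : ∀ i, ∑ α : Idx p j with ∑ i, α.1 i = j, α.1 i ≤ Fintype.card (Idx p j) := fun i => by
    have h2 := card_le_card_of_injOn (s := ({α : Idx p j | ∑ i, α.1 i = j} : Finset _).sigma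
      fun α => range (α.1 i)) (t := (univ : Finset (Idx p j)))
      (fun q => ⟨Function.update q.1.1 i (min q.2 (q.1.1 i)), le_trans (sum_le_sum fun l _ => by
        by_cases hl : l = i
        · subst hl
          simp
        · simp [hl]) q.1.2⟩) (fun _ _ => mem_univ _) ?_
    · simpa using h2
    rintro ⟨α, t⟩ h ⟨β, u⟩ h' e
    simp only [coe_sigma, Set.mem_sigma_iff, coe_filter, mem_univ, true_and, Set.mem_setOf_eq,
      coe_range, Set.mem_Iio] at h h'
    have e1 := congrArg Subtype.val e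
    have e2 : ∀ l, l ≠ i → α.1 l = β.1 l := fun l hl => by simpa [hl] using congrFun e1 l
    have e3 : t = u := by simpa [h.2.le, h'.2.le] using congrFun e1 i
    have e4 : α.1 i = β.1 i := by
      have a1 := add_sum_erase univ α.1 (mem_univ i)
      have a2 := add_sum_erase univ β.1 (mem_univ i)
      have a3 : ∑ l ∈ univ.erase i, α.1 l = ∑ l ∈ univ.erase i, β.1 l :=
        sum_congr rfl fun l hl => e2 l (ne_of_mem_erase hl)
      omega
    obtain rfl : α = β := Subtype.ext (funext fun l => by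
      by_cases hl : l = i
      · rw [hl, e4]
      · exact e2 l hl)
    rw [e3]
  calc _ = ∑ α : Idx p j with ∑ i, α.1 i = j, ∑ i, α.1 i := by
        rw [sum_congr rfl fun α hα => (mem_filter.1 hα).2, sum_const, smul_eq_mul]
    _ ≤ _ := by
        rw [sum_comm]
        simpa using sum_le_card_nsmul univ _ _ fun i _ => h1 i

theorem idx_mono {p j : ℕ} [Fintype (Idx p j)] (hp : 1 ≤ p) (m : ℕ) :
    #{α : Idx p j | ∑ i, α.1 i = m} ≤ #{α : Idx p j | ∑ i, α.1 i = j} := by
  classical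
  have h1 : ∀ α : Idx p j, ∑ i, (α.1 + (Pi.single ⟨0, hp⟩ (j - ∑ i, α.1 i) : Fin p → ℕ)) i = j :=
    fun α => by
      have := α.2
      simp only [Pi.add_apply, sum_add_distrib, Fintype.sum_pi_single']
      omega
  refine card_le_card_of_injOn (fun α => ⟨_, (h1 α).le⟩)
    (fun α _ => mem_filter.2 ⟨mem_univ _, h1 α⟩) fun α h β h' e => ?_
  have e1 := congrArg Subtype.val e
  simp only [(mem_filter.1 h).2, (mem_filter.1 h').2] at e1
  exact Subtype.ext (add_right_cancel e1)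

theorem idx_sum {p j : ℕ} [Fintype (Idx p j)] (hp : 1 ≤ p) (T : Finset (Idx p j)) :
    T.card ^ 2 * j ≤ 4 * p * Fintype.card (Idx p j) * ∑ α ∈ T, (j + 1 - ∑ i, α.1 i) := by
  classical
  have h := sq_le_of_fib T (fun α => j + 1 - ∑ i, α.1 i) (fun α => by have := α.2; omega)
    (N := #{α : Idx p j | ∑ i, α.1 i = j}) fun m => le_trans (card_le_card fun α hα => by
      have := α.2
      have := (mem_filter.1 hα).2
      exact mem_filter.2 ⟨mem_univ _, by omega⟩) (idx_mono hp (j + 1 - m))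
  calc _ ≤ 4 * (#{α : Idx p j | ∑ i, α.1 i = j} * j) * ∑ α ∈ T, (j + 1 - ∑ i, α.1 i) :=
        (Nat.mul_le_mul_right j h).trans_eq (by ring)
    _ ≤ _ := by
        rw [mul_assoc 4 p]
        exact Nat.mul_le_mul_right _ (Nat.mul_le_mul_left _ idx_top)

end Vale.Agent.P284Z.Ang
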