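import Vale.Agent.P284Z.Defs
import Vale.Agent.P284Z.D.Alg
import Mathlib.Analysis.Complex.JensenFormula
import Mathlib.Analysis.InnerProductSpace.Calculus

/-!
# P284Z, block D: regularity and plurisubharmonicity
-/

set_option linter.all false

open scoped InnerProductSpace ContDiff Topology
open Finset Matrix Metric

noncomputable section

namespace Vale.Agent.P284Z.Ang

variable {H : Type} [NormedAddCommGroup H] [InnerProductSpace ℂ H] {ι : Type} [Fintype ι]
  [DecidableEq ι] {W : Type} [NormedAddCommGroup W] [NormedSpace ℂ W]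

/-- the sub-mean inequality for the logarithm of the modulus -/
theorem log_le_avg {g : ℂ → ℂ} (hg : AnalyticOnNhd ℂ g (closedBall 0 1)) (h0 : g 0 ≠ 0)
    {u : ℂ → ℝ} (hu : CircleIntegrable u 0 1)
    (h : ∀ ζ ∈ sphere (0 : ℂ) 1, g ζ ≠ 0 → Real.log ‖g ζ‖ ≤ u ζ) :
    Real.log ‖g 0‖ ≤ Real.circleAverage u 0 1 := by
  classical
  have hg' : AnalyticOnNhd ℂ g (closedBall 0 |(1 : ℝ)|) := by rwa [abs_one]
  have h1 : (fun ζ => Real.log ‖g ζ‖) =ᶠ[Filter.codiscreteWithin (sphere 0 |(1 : ℝ)|)]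
      fun ζ => min (Real.log ‖g ζ‖) (u ζ) := by
    filter_upwards [Filter.codiscreteWithin_mono sphere_subset_closedBall
      (hg'.preimage_zero_mem_codiscreteWithin h0 (by simp)
        (isConnected_closedBall (abs_nonneg _))), Filter.self_mem_codiscreteWithin _] with ζ h1 h2
    exact (min_eq_left (h ζ (by simpa using h2) h1)).symm
  have h2 := ((hg'.mono sphere_subset_closedBall).meromorphicOn.circleIntegrable_log_norm
    ).congr_codiscreteWithin h1
  refine le_trans ?_ (Real.circleAverage_mono h2 hu fun _ _ => min_le_right _ _)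
  rw [← Real.circleAverage_congr_codiscreteWithin h1 one_ne_zero,
    hg'.circleAverage_log_norm one_ne_zero h0, le_add_iff_nonneg_left]
  refine finsum_nonneg fun v => ?_
  by_cases hv : v ∈ closedBall (0 : ℂ) |(1 : ℝ)|
  · refine mul_nonneg (by exact_mod_cast MeromorphicOn.AnalyticOnNhd.divisor_nonneg hg' v) ?_
    rw [one_mul, Real.log_inv, zero_sub, norm_neg, neg_nonneg]
    exact Real.log_nonpos (norm_nonneg _) (by simpa using hv)
  · rw [Function.locallyFinsuppWithin.apply_eq_zero_of_notMem _ hv]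
    simp

/-- touching from below by the square of the modulus of a holomorphic function -/
theorem lpsh_of_touch {P : W → ℝ} {U : Set W} (hc : ContinuousOn P U) (h0 : ∀ z ∈ U, 0 ≤ P z)
    (h : ∀ z₀ ∈ U, 0 < P z₀ → ∃ g : W → ℂ, AnalyticOnNhd ℂ g U ∧ ‖g z₀‖ = P z₀ ∧
      ∀ z ∈ U, ‖g z‖ ^ 2 ≤ P z₀ * P z) : LPsh P U := by
  refine ⟨h0, fun T => ?_⟩
  have hl : Continuous (lg T) :=
    (continuous_id.max continuous_const).log fun _ => (lt_max_of_lt_right (Real.exp_pos _)).ne'
  refine ⟨(hl.comp_continuousOn hc).upperSemicontinuousOn, fun z w hw => ?_⟩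
  have hz : z ∈ U := by simpa using hw 0 (by simp)
  have hi : CircleIntegrable (fun ζ : ℂ => lg T (P (z + ζ • w))) 0 1 :=
    ContinuousOn.circleIntegrable zero_le_one (hl.comp_continuousOn
      (hc.comp (by fun_prop) fun ζ hζ => hw ζ (by simpa using (mem_sphere_zero_iff_norm.1 hζ).le)))
  by_cases hT : P z ≤ Real.exp (-T)
  · change Real.log (max (P z) _) ≤ _
    rw [max_eq_right hT, ← Real.circleAverage_const (Real.log (Real.exp (-T))) 0 1]
    exact Real.circleAverage_mono (circleIntegrable_const _ _ _) hi fun _ _ =>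
      Real.log_le_log (Real.exp_pos _) (le_max_right _ _)
  have hp : 0 < P z := (Real.exp_pos _).trans (not_le.1 hT)
  obtain ⟨g, h1, h2, h3⟩ := h z hz hp
  have h4 := log_le_avg (g := fun ζ => g (z + ζ • w)) (fun ζ hζ => AnalyticAt.comp
      (f := fun ζ : ℂ => z + ζ • w) (h1 _ (hw ζ (by simpa using hζ))) (by fun_prop))
    (by simpa using norm_pos_iff.1 (h2 ▸ hp))
    (u := fun ζ => (2⁻¹ : ℝ) • (Real.log (P z) + lg T (P (z + ζ • w))))
    ((circleIntegrable_const _ _ _).add hi).const_smul fun ζ hζ hg => by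
      have h5 := h3 _ (hw ζ (mem_sphere_zero_iff_norm.1 hζ).le)
      have h6 : 0 < ‖g (z + ζ • w)‖ ^ 2 := pow_pos (norm_pos_iff.2 hg) 2
      have h7 : 0 < P (z + ζ • w) := (mul_pos_iff_of_pos_left hp).1 (h6.trans_le h5)
      have h8 := Real.log_le_log h6 h5
      have h9 : Real.log (P (z + ζ • w)) ≤ lg T (P (z + ζ • w)) :=
        Real.log_le_log h7 (le_max_left _ _)
      rw [Real.log_pow, Real.log_mul hp.ne' h7.ne'] at h8
      rw [smul_eq_mul]
      push_cast at h8
      linarith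
  rw [Real.circleAverage_fun_smul, Real.circleAverage_fun_add (circleIntegrable_const _ _ _) hi,
    Real.circleAverage_const, zero_smul, add_zero, h2, smul_eq_mul] at h4
  change Real.log (max (P z) _) ≤ _
  rw [max_eq_left (not_le.1 hT).le]
  linarith

/-- properties of functions which pass to determinants -/
theorem det_ind {X n : Type} [Fintype n] [DecidableEq n] (S : Subring (X → ℂ))
    {A : X → Matrix n n ℂ} (h : ∀ i j, (fun x => A x i j) ∈ S) : (fun x => (A x).det) ∈ S := by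
  have e : (fun x => (A x).det) =
      ∑ σ : Equiv.Perm n, (Equiv.Perm.sign σ : ℤ) * ∏ i, fun x => A x (σ i) i := by
    funext x
    simp [det_apply']
  rw [e]
  exact S.sum_mem fun σ _ => S.mul_mem (intCast_mem S _) (S.prod_mem fun i _ => h _ _)

theorem Bk_ind {X : Type} (S : Subring (X → ℂ)) (k : ℕ) {a b a' b' : X → ι → H}
    (h1 : ∀ i j, (fun x => ⟪a x i, a' x j⟫_ℂ) ∈ S) (h2 : ∀ i j, (fun x => ⟪a x i, b' x j⟫_ℂ) ∈ S)
    (h3 : ∀ i j, (fun x => ⟪b x i, a' x j⟫_ℂ) ∈ S) (h4 : ∀ i j, (fun x => ⟪b x i, b' x j⟫_ℂ) ∈ S) :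
    (fun x => Bk k (a x) (b x) (a' x) (b' x)) ∈ S := by
  have e : (fun x => Bk k (a x) (b x) (a' x) (b' x)) = ∑ T : Finset ι with T.card = k,
      fun x => MT T (a x) (b x) (b x) (a' x) (b' x) := by
    funext x
    rw [Bk, B3_eq, Finset.sum_apply]
  rw [e]
  refine S.sum_mem fun T _ => det_ind S ?_
  rintro (i | i) (j | j)
  · exact h1 i j
  · exact h2 i j
  · by_cases hi : i ∈ T
    · simpa [gm, cut, hi] using h3 i j
    · simp only [gm, cut, hi, fromBlocks_apply₂₁, of_apply, if_false, inner_zero_left]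
      exact S.zero_mem
  · by_cases hi : i ∈ T <;> simpa [gm, cut, hi] using h4 i j

/-- continuous functions -/
def sC (X : Type) [TopologicalSpace X] : Subring (X → ℂ) where
  carrier := {f | Continuous f}
  mul_mem' := Continuous.mul
  one_mem' := continuous_const
  add_mem' := Continuous.add
  zero_mem' := continuous_const
  neg_mem' := Continuous.neg

/-- analytic functions -/
def sA (z : W) : Subring (W → ℂ) where
  carrier := {f | AnalyticAt ℂ f z}
  mul_mem' := AnalyticAt.mul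
  one_mem' := analyticAt_const
  add_mem' := AnalyticAt.add
  zero_mem' := analyticAt_const
  neg_mem' := AnalyticAt.neg

/-- smooth functions -/
def sS {V : Type} [NormedAddCommGroup V] [NormedSpace ℝ V] (z : V) : Subring (V → ℂ) where
  carrier := {f | ContDiffAt ℝ ∞ f z}
  mul_mem' := fun h h' => Set.mem_setOf.2 ((Set.mem_setOf.1 h).mul (Set.mem_setOf.1 h'))
  one_mem' := Set.mem_setOf.2 contDiffAt_const
  add_mem' := fun h h' => Set.mem_setOf.2 ((Set.mem_setOf.1 h).add (Set.mem_setOf.1 h'))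
  zero_mem' := Set.mem_setOf.2 contDiffAt_const
  neg_mem' := fun h => Set.mem_setOf.2 (Set.mem_setOf.1 h).neg

theorem mem_sS {V : Type} [NormedAddCommGroup V] [NormedSpace ℝ V] {z : V} {f : V → ℂ} :
    f ∈ sS z ↔ ContDiffAt ℝ ∞ f z := Iff.rfl

theorem continuous_G : Continuous (G : (ι → H) → ℝ) :=
  Complex.continuous_re.comp (det_ind (sC _) (A := fun a : ι → H => gm a a) fun i j =>
    (continuous_apply i).inner (continuous_apply j))

theorem continuous_Om (k : ℕ) : Continuous fun q : (ι → H) × (ι → H) => Om k q.1 q.2 := by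
  refine Complex.continuous_re.comp (Bk_ind (sC _) k ?_ ?_ ?_ ?_) <;>
    exact fun i j => Continuous.inner (by fun_prop) (by fun_prop)

theorem analyticAt_inner (v : H) {f : W → H} {z : W} (hf : AnalyticAt ℂ f z) :
    AnalyticAt ℂ (fun w => ⟪v, f w⟫_ℂ) z := ((innerSL ℂ v).analyticAt _).comp hf

theorem analyticAt_det_gm (a : ι → H) {x : W → ι → H} {z : W}
    (hx : ∀ i, AnalyticAt ℂ (fun w => x w i) z) : AnalyticAt ℂ (fun w => (gm a (x w)).det) z :=
  det_ind (sA z) fun i j => analyticAt_inner (a i) (hx j)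

theorem analyticAt_Bk (k : ℕ) (a b : ι → H) {x y : W → ι → H} {z : W}
    (hx : ∀ i, AnalyticAt ℂ (fun w => x w i) z) (hy : ∀ i, AnalyticAt ℂ (fun w => y w i) z) :
    AnalyticAt ℂ (fun w => Bk k a b (x w) (y w)) z :=
  Bk_ind (sA z) k (fun _ j => analyticAt_inner _ (hx j)) (fun _ j => analyticAt_inner _ (hy j))
    (fun _ j => analyticAt_inner _ (hx j)) fun _ j => analyticAt_inner _ (hy j)

theorem contDiffAt_G {V : Type} [NormedAddCommGroup V] [NormedSpace ℝ V] [NormedSpace ℝ H]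
    [IsScalarTower ℝ ℂ H] {x : V → ι → H} {z : V} (hx : ∀ i, ContDiffAt ℝ ∞ (fun w => x w i) z) :
    ContDiffAt ℝ ∞ (fun w => G (x w)) z :=
  Complex.reCLM.contDiff.contDiffAt.comp z (mem_sS.1 (det_ind (sS z)
    (A := fun w => gm (x w) (x w)) fun i j => mem_sS.2 ((hx i).inner ℂ (hx j))))

theorem contDiffAt_Om {V : Type} [NormedAddCommGroup V] [NormedSpace ℝ V] [NormedSpace ℝ H]
    [IsScalarTower ℝ ℂ H] (k : ℕ) {x y : V → ι → H} {z : V}
    (hx : ∀ i, ContDiffAt ℝ ∞ (fun w => x w i) z) (hy : ∀ i, ContDiffAt ℝ ∞ (fun w => y w i) z) :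
    ContDiffAt ℝ ∞ (fun w => Om k (x w) (y w)) z :=
  Complex.reCLM.contDiff.contDiffAt.comp z (mem_sS.1 (Bk_ind (sS z) k
    (fun i j => mem_sS.2 ((hx i).inner ℂ (hx j))) (fun i j => mem_sS.2 ((hx i).inner ℂ (hy j)))
    (fun i j => mem_sS.2 ((hy i).inner ℂ (hx j))) fun i j => mem_sS.2 ((hy i).inner ℂ (hy j))))

theorem lpsh_G {U : Set W} {x : W → ι → H} (hx : ∀ i, AnalyticOnNhd ℂ (fun w => x w i) U) :
    LPsh (fun w => G (x w)) U :=
  lpsh_of_touch (continuous_G.comp_continuousOn (continuousOn_pi.2 fun i => (hx i).continuousOn))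
    (fun _ _ => G_nonneg _) fun z₀ _ _ => ⟨fun w => (gm (x z₀) (x w)).det,
      fun z hz => analyticAt_det_gm _ fun i => hx i z hz,
      (congrArg norm (det_gm_self _)).trans (Complex.norm_of_nonneg (G_nonneg _)),
      fun _ _ => norm_det_gm_sq _ _⟩

theorem lpsh_Om (k : ℕ) {U : Set W} {x y : W → ι → H}
    (hx : ∀ i, AnalyticOnNhd ℂ (fun w => x w i) U) (hy : ∀ i, AnalyticOnNhd ℂ (fun w => y w i) U) :
    LPsh (fun w => Om k (x w) (y w)) U :=
  lpsh_of_touch ((continuous_Om k).comp_continuousOn (f := fun w => (x w, y w))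
      ((continuousOn_pi.2 fun i => (hx i).continuousOn).prodMk
        (continuousOn_pi.2 fun i => (hy i).continuousOn)))
    (fun _ _ => Om_nonneg _ _ _) fun z₀ _ _ => ⟨fun w => Bk k (x z₀) (y z₀) (x w) (y w),
      fun z hz => analyticAt_Bk k _ _ (fun i => hx i z hz) fun i => hy i z hz,
      (congrArg norm (Bk_self _ _ _)).trans (Complex.norm_of_nonneg (Om_nonneg _ _ _)),
      fun _ _ => norm_Bk_sq _ _ _ _ _⟩

end Vale.Agent.P284Z.Ang
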