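import Vale.Agent.P284Z.D.Rei
import Vale.Agent.P284Z.D.Pole
import Vale.Agent.P284Z.D.Reg

/-!
# P284Z, block D: principal angles (all the files)
-/
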