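import Vale.Agent.P284Z.D.Alg
import Mathlib.Analysis.InnerProductSpace.Spectrum

/-!
# P284Z, block D: principal vectors, the normal form and the 3-chain
-/

set_option linter.all false

open scoped InnerProductSpace
open Finset Matrix

noncomputable section

namespace Vale.Agent.P284Z.Ang

variable {H : Type} [NormedAddCommGroup H] [InnerProductSpace ℂ H] {ι : Type} [Fintype ι]
  [DecidableEq ι] {a b c u : ι → H}

/-- the projection on the orthogonal complement of the span -/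
def Qj (a : ι → H) : H →L[ℂ] H := (sp a)ᗮ.starProjection

theorem Qj_eq (a : ι → H) (v : H) : Qj a v = v - Pj a v := Submodule.starProjection_orthogonal_val v

theorem Pj_mem (a : ι → H) (v : H) : Pj a v ∈ sp a := (sp a).starProjection_apply_mem v

theorem Qj_le (a : ι → H) (v : H) : ‖Qj a v‖ ≤ ‖v‖ := (sp a)ᗮ.norm_starProjection_apply_le v

theorem Pj_le (a : ι → H) (v : H) : ‖Pj a v‖ ≤ ‖v‖ := (sp a).norm_starProjection_apply_le v

theorem Pj_inner (a : ι → H) (v w : H) : ⟪Pj a v, w⟫_ℂ = ⟪v, Pj a w⟫_ℂ :=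
  (sp a).inner_starProjection_left_eq_right v w

theorem Qj_inner (a : ι → H) (v w : H) : ⟪Qj a v, w⟫_ℂ = ⟪v, Qj a w⟫_ℂ :=
  (sp a)ᗮ.inner_starProjection_left_eq_right v w

theorem Qj_mem (a : ι → H) (v : H) {w : H} (hw : w ∈ sp a) : ⟪Qj a v, w⟫_ℂ = 0 := by
  rw [Qj_eq]
  exact Submodule.starProjection_inner_eq_zero v w hw

theorem Qj_Qj (a : ι → H) (v w : H) : ⟪Qj a v, Qj a w⟫_ℂ = ⟪Qj a v, w⟫_ℂ := by
  rw [Qj_eq a w, inner_sub_right, Qj_mem a v (Pj_mem a w), sub_zero]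

/-- `u` is a family of principal vectors of the span of `b` with respect to the span of `a` -/
structure PV (a b u : ι → H) : Prop where
  on : Orthonormal ℂ u
  sp : sp u = sp b
  orth : ∀ i j, i ≠ j → ⟪Qj a (u i), Qj a (u j)⟫_ℂ = 0

theorem exists_pv (a : ι → H) (hb : LinearIndependent ℂ b) : ∃ u, PV a b u := by
  let T : sp b →ₗ[ℂ] sp b := (sp b).orthogonalProjectionOnto.toLinearMap ∘ₗ (Qj a).toLinearMap ∘ₗ
    (sp b).subtype
  have h1 : ∀ x y : sp b, ⟪x, T y⟫_ℂ = ⟪(x : H), Qj a y⟫_ℂ := fun x y =>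
    Submodule.inner_orthogonalProjectionOnto_eq_of_mem_left x _
  have hT : T.IsSymmetric := fun x y => by
    rw [h1, ← Qj_inner]
    exact Submodule.inner_orthogonalProjectionOnto_eq_of_mem_right y _
  have hn : Module.finrank ℂ (sp b) = Fintype.card ι := finrank_span_eq_card hb
  let e := (hT.eigenvectorBasis hn).reindex (Fintype.equivFin ι).symm
  refine ⟨fun i => e i, e.orthonormal.comp_linearIsometry (sp b).subtypeₗᵢ, ?_, fun i j hij => ?_⟩
  · have := congrArg (Submodule.map (sp b).subtype) e.toBasis.span_eq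
    rw [Submodule.map_span, Submodule.map_subtype_top, ← Set.range_comp] at this
    exact this
  · rw [Qj_Qj, Qj_inner, ← h1]
    simp only [e, OrthonormalBasis.reindex_apply, hT.apply_eigenvectorBasis hn, inner_smul_right]
    rw [(hT.eigenvectorBasis hn).orthonormal.2 fun h => hij ((Equiv.injective _) h), mul_zero]

theorem norm_sum_sq {x : ι → H} (h : ∀ i j, i ≠ j → ⟪x i, x j⟫_ℂ = 0) (c : ι → ℂ) :
    ‖∑ i, c i • x i‖ ^ 2 = ∑ i, ‖c i‖ ^ 2 * ‖x i‖ ^ 2 := by
  apply Complex.ofReal_injective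
  push_cast
  refine (inner_self_eq_norm_sq_to_K (𝕜 := ℂ) (∑ i, c i • x i)).symm.trans ?_
  rw [sum_inner]
  refine sum_congr rfl fun i _ => ?_
  rw [inner_sum, sum_eq_single i (fun j _ hj => by
    rw [inner_smul_left, inner_smul_right, h i j hj.symm, mul_zero, mul_zero]) (by simp),
    inner_smul_left, inner_smul_right, inner_self_eq_norm_sq_to_K, ← mul_assoc, Complex.conj_mul']
  rfl

/-- the elementary symmetric function of the squares of the sines -/
def es (k : ℕ) (a u : ι → H) : ℝ := ∑ T : Finset ι with T.card = k, ∏ i ∈ T, ‖Qj a (u i)‖ ^ 2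

namespace PV

variable (h : PV a b u)
include h

theorem le_one (i : ι) : ‖Qj a (u i)‖ ≤ 1 := (Qj_le a _).trans_eq (h.on.1 i)

theorem G_eq : G u = 1 := by
  rw [G, show gm u u = 1 from gram_eq_one_iff_orthonormal.2 h.on, det_one, Complex.one_re]

theorem Om_eq (k : ℕ) : Om k a b = G a * G b * es k a u := by
  have h1 : Om k a u = G a * es k a u := by
    apply Complex.ofReal_injective
    rw [← Bk_self, Bk_shear k (e := fun i => Qj a (u i)) fun i => by
      rw [Qj_eq, sub_sub_cancel]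
      exact Pj_mem a _, B3_eq, es]
    push_cast
    rw [mul_sum]
    refine sum_congr rfl fun T _ => ?_
    have h2 : gm (cut T fun i => Qj a (u i)) a = 0 := by
      ext i j
      by_cases hi : i ∈ T <;> simp [gm, cut, hi, Qj_mem a _ (mem_sp a j)]
    have h3 : gm (cut T fun i => Qj a (u i)) u + gm (cut Tᶜ u) u =
        diagonal fun i => if i ∈ T then ((‖Qj a (u i)‖ : ℂ) ^ 2) else 1 := by
      ext i j
      by_cases hij : i = j
      · subst hij
        by_cases hi : i ∈ T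
        · simp [gm, cut, hi, ← Qj_Qj a (u i) (u i)]
        · simp [gm, cut, hi, h.on.1 i]
      · by_cases hi : i ∈ T
        · simp [gm, cut, hi, hij, ← Qj_Qj a (u i) (u j), h.orth i j hij]
        · simp [gm, cut, hi, hij, h.on.2 hij]
    rw [MT, h2, h3, det_fromBlocks_zero₂₁, det_gm_self, det_diagonal, prod_ite_mem, univ_inter]
  have h4 := Om_sp_right k a h.sp.ge
  rw [h.G_eq, mul_one, h1] at h4
  rw [h4]
  ring

theorem norm_sq (c : ι → ℂ) : ‖∑ i, c i • u i‖ ^ 2 = ∑ i, ‖c i‖ ^ 2 := by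
  simpa [h.on.1] using norm_sum_sq (fun i j hij => h.on.2 hij) c

theorem norm_Q_sq (c : ι → ℂ) :
    ‖Qj a (∑ i, c i • u i)‖ ^ 2 = ∑ i, ‖c i‖ ^ 2 * ‖Qj a (u i)‖ ^ 2 := by
  simpa using norm_sum_sq h.orth c

/-- few large angles give a small symmetric function -/
theorem es_le {s : ℝ} {n k k' : ℕ} (hn : #{i | s < ‖Qj a (u i)‖} ≤ n) (hk : n + k ≤ k') :
    es k' a u ≤ 2 ^ Fintype.card ι * s ^ (2 * k) := by
  have h0 : 0 ≤ s ^ (2 * k) := by rw [pow_mul]; positivity
  refine (sum_le_card_nsmul _ _ (s ^ (2 * k)) fun T hT => ?_).trans ?_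
  · obtain ⟨T', h1, h2⟩ := exists_subset_card_eq 
      (s := T \ ({i | s < ‖Qj a (u i)‖} : Finset ι)) (n := k) (by
      have := le_card_sdiff ({i | s < ‖Qj a (u i)‖} : Finset ι) T
      rw [(mem_filter.1 hT).2] at this
      omega)
    refine (prod_le_prod_of_subset_of_le_one (h1.trans sdiff_subset) (fun _ _ => by positivity)
      fun i _ _ => pow_le_one₀ (norm_nonneg _) (h.le_one i)).trans ?_
    rw [pow_mul, ← h2, ← prod_const]
    refine prod_le_prod (fun _ _ => by positivity) fun i hi => ?_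
    refine pow_le_pow_left₀ (norm_nonneg _) ?_ 2
    simpa using (mem_sdiff.1 (h1 hi)).2
  · rw [nsmul_eq_mul]
    refine mul_le_mul_of_nonneg_right ?_ h0
    exact_mod_cast (card_le_univ _).trans_eq Fintype.card_finset

omit h in
/-- a small symmetric function gives few large angles -/
theorem card_lt {s : ℝ} (hs : 0 ≤ s) {k : ℕ} (hk : 1 ≤ k) (he : es k a u ≤ s ^ (2 * k)) :
    #{i | s < ‖Qj a (u i)‖} < k := by
  by_contra hn
  obtain ⟨T, h1, h2⟩ := exists_subset_card_eq (not_lt.1 hn)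
  have h3 : ∀ i ∈ T, s < ‖Qj a (u i)‖ := fun i hi => (mem_filter.1 (h1 hi)).2
  have h4 : ∏ i ∈ T, ‖Qj a (u i)‖ ^ 2 ≤ es k a u :=
    single_le_sum (f := fun T : Finset ι => ∏ i ∈ T, ‖Qj a (u i)‖ ^ 2)
      (fun _ _ => by positivity) (mem_filter.2 ⟨mem_univ _, h2⟩)
  refine (h4.trans he).not_gt ?_
  rcases hs.eq_or_lt with rfl | hs
  · rw [zero_pow (by omega)]
    exact prod_pos fun i hi => pow_pos (h3 i hi) 2
  · rw [pow_mul, ← h2, ← prod_const]
    exact prod_lt_prod_of_nonempty (fun _ _ => by positivity)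
      (fun i hi => pow_lt_pow_left₀ (h3 i hi) hs.le two_ne_zero) (card_pos.1 (by omega))

end PV

/-- up to codimension `n`, the span of `b` is `s`-close to the span of `a` -/
def Cl (a b : ι → H) (s : ℝ) (n : ℕ) : Prop := ∃ W : Finset H, W.card ≤ n ∧
  ∀ v ∈ sp b, (∀ w ∈ W, ⟪w, v⟫_ℂ = 0) → ‖Qj a v‖ ≤ s * ‖v‖

theorem PV.cl (h : PV a b u) {s : ℝ} (hs : 0 ≤ s) : Cl a b s #{i | s < ‖Qj a (u i)‖} := by
  classical
  refine ⟨image u {i | s < ‖Qj a (u i)‖}, card_image_le, fun v hv hw => ?_⟩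
  rw [← h.sp] at hv
  obtain ⟨c, rfl⟩ := (Submodule.mem_span_range_iff_exists_fun ℂ).1 hv
  refine le_of_sq_le_sq ?_ (by positivity)
  rw [mul_pow, h.norm_sq, h.norm_Q_sq, mul_sum]
  refine sum_le_sum fun i _ => ?_
  by_cases hi : s < ‖Qj a (u i)‖
  · have := hw _ (mem_image_of_mem u (mem_filter.2 ⟨mem_univ i, hi⟩))
    rw [h.on.inner_right_fintype] at this
    simp [this]
  · rw [mul_comm]
    exact mul_le_mul_of_nonneg_right (pow_le_pow_left₀ (norm_nonneg _) (not_lt.1 hi) 2)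
      (sq_nonneg _)

theorem PV.card_le (h : PV a b u) {s : ℝ} (hs : 0 ≤ s) {n : ℕ} (hc : Cl a b s n) :
    #{i | s < ‖Qj a (u i)‖} ≤ n := by
  classical
  obtain ⟨W, hW, hc⟩ := hc
  by_contra hn
  let Φ : (ι → ℂ) →ₗ[ℂ] ({i // ¬ s < ‖Qj a (u i)‖} → ℂ) × (W → ℂ) :=
    (LinearMap.funLeft ℂ ℂ Subtype.val).prod
      (LinearMap.pi fun w => innerₛₗ ℂ (w : H) ∘ₗ Fintype.linearCombination ℂ u)
  have h1 : LinearMap.ker Φ ≠ ⊥ := LinearMap.ker_ne_bot_of_finrank_lt (by
    rw [Module.finrank_prod, Module.finrank_fintype_fun_eq_card, Module.finrank_fintype_fun_eq_card,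
      Module.finrank_fintype_fun_eq_card, Fintype.card_subtype_compl, Fintype.card_coe,
      Fintype.card_subtype]
    have := card_le_univ ({i | s < ‖Qj a (u i)‖} : Finset ι)
    omega)
  obtain ⟨c, hc1, hc0⟩ := Submodule.exists_mem_ne_zero_of_ne_bot h1
  have h2 : ∀ i, ¬ s < ‖Qj a (u i)‖ → c i = 0 := fun i hi =>
    congrFun (congrArg Prod.fst hc1) ⟨i, hi⟩
  have h3 := hc (∑ i, c i • u i) (h.sp ▸ act_mem (Matrix.of fun _ => c) u (Function.ne_iff.1 hc0).choose)
    fun w hw => congrFun (congrArg Prod.snd hc1) ⟨w, hw⟩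
  have h4 := pow_le_pow_left₀ (norm_nonneg _) h3 2
  rw [mul_pow, h.norm_sq, h.norm_Q_sq, mul_sum] at h4
  obtain ⟨j, hj⟩ := Function.ne_iff.1 hc0
  refine h4.not_gt (sum_lt_sum (fun i _ => ?_) ⟨j, mem_univ j, ?_⟩)
  · by_cases hi : s < ‖Qj a (u i)‖
    · rw [mul_comm]
      exact mul_le_mul_of_nonneg_left (pow_le_pow_left₀ hs hi.le 2) (sq_nonneg _)
    · simp [h2 i hi]
  · rw [mul_comm]
    exact mul_lt_mul_of_pos_left (pow_lt_pow_left₀ (not_not.1 (mt (h2 j) hj)) hs two_ne_zero)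
      (pow_pos (norm_pos_iff.2 hj) 2)

theorem Cl.trans {s₁ s₂ : ℝ} {n₁ n₂ : ℕ} (h : Cl a b s₁ n₁) (h' : Cl b c s₂ n₂) (hs : 0 ≤ s₁) :
    Cl a c (s₁ + s₂) (n₁ + n₂) := by
  classical
  obtain ⟨W₁, h1, h2⟩ := h
  obtain ⟨W₂, h3, h4⟩ := h'
  refine ⟨image (Pj b) W₁ ∪ W₂, (card_union_le _ _).trans (add_le_add (card_image_le.trans h1) h3),
    fun v hv hw => ?_⟩
  have h5 := h2 (Pj b v) (Pj_mem b v) fun w hw' => by
    rw [← Pj_inner]
    exact hw _ (mem_union_left _ (mem_image_of_mem _ hw'))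
  have h6 := h4 v hv fun w hw' => hw w (mem_union_right _ hw')
  have h7 : Qj a v = Qj a (Pj b v) + Qj a (Qj b v) := by rw [← map_add, Qj_eq b, add_sub_cancel]
  have h8 := mul_le_mul_of_nonneg_left (Pj_le b v) hs
  have h9 := Qj_le a (Qj b v)
  rw [h7]
  linarith [norm_add_le (Qj a (Pj b v)) (Qj a (Qj b v))]

theorem Om_dep (k : ℕ) (h : ¬ LinearIndependent ℂ b) (a : ι → H) : Om k a b = 0 := by
  obtain ⟨c, h1, i, h2⟩ := Fintype.not_linearIndependent_iff.1 h
  let L : Matrix ι ι ℂ := updateRow 1 i (Pi.single i 1 - (c i)⁻¹ • c)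
  have h3 : act L b = b := by
    funext j
    by_cases hj : j = i
    · subst hj
      simp [act, L, sub_smul, mul_smul, ← smul_sum, h1, Pi.single_apply]
    · simp [act, L, updateRow_ne hj, one_apply]
  have h4 : L.det = 0 := det_eq_zero_of_column_eq_zero i fun j => by
    by_cases hj : j = i
    · subst hj
      simp [L, h2]
    · simp [L, updateRow_ne hj, one_apply, hj]
  have := Om_act k 1 L a b
  rwa [act_one, h3, h4, norm_zero, zero_pow two_ne_zero, mul_zero, zero_mul] at this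

theorem Om_le (k : ℕ) (a b : ι → H) : Om k a b ≤ 2 ^ Fintype.card ι * (G a * G b) := by
  by_cases hb : LinearIndependent ℂ b
  · obtain ⟨u, h⟩ := exists_pv a hb
    have := h.es_le (s := 1) (n := 0) (k := 0) (k' := k) (by simpa using h.le_one) (by omega)
    rw [h.Om_eq, mul_comm]
    exact mul_le_mul_of_nonneg_right (by simpa using this) (mul_nonneg (G_nonneg a) (G_nonneg b))
  · rw [Om_dep k hb, G_eq_zero hb, mul_zero, mul_zero]

theorem PV.card_lt_of_Om (h : PV a b u) (ha : LinearIndependent ℂ a) (hb : LinearIndependent ℂ b)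
    {k : ℕ} (hk : 1 ≤ k) {s : ℝ} (hs : 0 ≤ s) (he : Om k a b ≤ s ^ (2 * k) * (G a * G b)) :
    #{i | s < ‖Qj a (u i)‖} < k := by
  rw [h.Om_eq, mul_comm] at he
  exact PV.card_lt hs hk (le_of_mul_le_mul_right he (mul_pos (G_pos_iff.2 ha) (G_pos_iff.2 hb)))

theorem cl_of_Om (ha : LinearIndependent ℂ a) (hb : LinearIndependent ℂ b) {k : ℕ} (hk : 1 ≤ k)
    {s : ℝ} (hs : 0 ≤ s) (he : Om k a b ≤ s ^ (2 * k) * (G a * G b)) : Cl a b s k := by
  obtain ⟨u, h⟩ := exists_pv a hb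
  exact (h.cl hs).imp fun W hW => ⟨hW.1.trans (h.card_lt_of_Om ha hb hk hs he).le, hW.2⟩

theorem Om_of_cl (hb : LinearIndependent ℂ b) {s : ℝ} (hs : 0 ≤ s) {n k k' : ℕ} (hc : Cl a b s n)
    (hk : n + k ≤ k') : Om k' a b ≤ 2 ^ Fintype.card ι * s ^ (2 * k) * (G a * G b) := by
  obtain ⟨u, h⟩ := exists_pv a hb
  rw [h.Om_eq, mul_comm]
  exact mul_le_mul_of_nonneg_right (h.es_le (h.card_le hs hc) hk)
    (mul_nonneg (G_nonneg a) (G_nonneg b))

theorem Om_gt {k : ℕ} (hk : Fintype.card ι < k) (a b : ι → H) : Om k a b = 0 := by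
  rw [Om, Bk, B3, powersetCard_eq_empty.2 hk, sum_empty, Complex.zero_re]

/-- the 3-chain -/
theorem Om_chain {k k' : ℕ} (hk : 1 ≤ k) (h : 4 * k ≤ k') (a₁ a₂ a₃ a₄ : ι → H) :
    Om k' a₁ a₄ * (G a₂ * G a₃) ≤ 18 ^ Fintype.card ι *
      max (Om k a₁ a₂ * (G a₃ * G a₄))
        (max (Om k a₂ a₃ * (G a₁ * G a₄)) (Om k a₃ a₄ * (G a₁ * G a₂))) := by
  set m := max (Om k a₁ a₂ * (G a₃ * G a₄))
    (max (Om k a₂ a₃ * (G a₁ * G a₄)) (Om k a₃ a₄ * (G a₁ * G a₂))) with hm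
  have h0 : 0 ≤ m := le_max_of_le_left
    (mul_nonneg (Om_nonneg _ _ _) (mul_nonneg (G_nonneg _) (G_nonneg _)))
  by_cases hz : Om k' a₁ a₄ * (G a₂ * G a₃) = 0
  · rw [hz]
    positivity
  have hz' := left_ne_zero_of_mul hz
  have i4 : LinearIndependent ℂ a₄ := by_contra fun h => hz' (Om_dep _ h _)
  have i1 : LinearIndependent ℂ a₁ := by_contra fun h => hz' ((Om_symm _ _ _).trans (Om_dep _ h _))
  have i2 : LinearIndependent ℂ a₂ := by_contra fun h => hz (by simp [G_eq_zero h])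
  have i3 : LinearIndependent ℂ a₃ := by_contra fun h => hz (by simp [G_eq_zero h])
  have hr : k ≤ Fintype.card ι := by_contra fun h => hz' (Om_gt (by omega) _ _)
  have g1 := G_pos_iff.2 i1
  have g2 := G_pos_iff.2 i2
  have g3 := G_pos_iff.2 i3
  have g4 := G_pos_iff.2 i4
  obtain ⟨s, hs, hs'⟩ : ∃ s : ℝ, 0 ≤ s ∧ s ^ (2 * k) * (G a₁ * G a₂ * G a₃ * G a₄) = m := by
    refine ⟨(m / (G a₁ * G a₂ * G a₃ * G a₄)) ^ (((2 * k : ℕ) : ℝ)⁻¹), by positivity, ?_⟩
    rw [Real.rpow_inv_natCast_pow (by positivity) (by omega), div_mul_cancel₀ _ (by positivity)]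
  have c1 := cl_of_Om i1 i2 hk hs (le_of_mul_le_mul_right (a := G a₃ * G a₄)
    ((le_max_left _ _).trans_eq (by rw [← hm, ← hs']; ring)) (by positivity))
  have c2 := cl_of_Om i2 i3 hk hs (le_of_mul_le_mul_right (a := G a₁ * G a₄)
    (((le_max_left _ _).trans (le_max_right _ _)).trans_eq (by rw [← hm, ← hs']; ring))
    (by positivity))
  have c3 := cl_of_Om i3 i4 hk hs (le_of_mul_le_mul_right (a := G a₁ * G a₂)
    (((le_max_right _ _).trans (le_max_right _ _)).trans_eq (by rw [← hm, ← hs']; ring))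
    (by positivity))
  have c4 := Om_of_cl i4 (by positivity) ((c1.trans c2 hs).trans c3 (by positivity))
    (k := k) (k' := k') (by omega)
  refine (mul_le_mul_of_nonneg_right c4 (by positivity)).trans ?_
  have e : 2 ^ Fintype.card ι * (s + s + s) ^ (2 * k) * (G a₁ * G a₄) * (G a₂ * G a₃) =
      2 ^ Fintype.card ι * 9 ^ k * m := by
    rw [← hs', show s + s + s = 3 * s by ring, mul_pow, pow_mul 3]
    norm_num
    ring
  rw [e, show (18 : ℝ) = 2 * 9 by norm_num, mul_pow]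
  gcongr
  norm_num

end Vale.Agent.P284Z.Ang
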