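import Vale.Agent.P284Z.D.Nf
import Mathlib.Analysis.InnerProductSpace.l2Space

/-!
# P284Z, block D: the Reiter bound
-/

set_option linter.all false

open scoped InnerProductSpace
open Finset Matrix

noncomputable section

namespace Vale.Agent.P284Z.Ang

variable {H H' : Type} [NormedAddCommGroup H] [InnerProductSpace ℂ H] [NormedAddCommGroup H']
  [InnerProductSpace ℂ H'] {ι : Type} [Fintype ι] [DecidableEq ι]

theorem pr_nonneg (a : ι → H) (v : H) : 0 ≤ pr a v := sq_nonneg _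

theorem Pj_congr {a a' : ι → H} (h : sp a = sp a') (v : H) : Pj a v = Pj a' v :=
  Submodule.eq_starProjection_of_mem_of_inner_eq_zero (h.ge (Pj_mem a' v)) fun w hw =>
    Submodule.starProjection_inner_eq_zero v w (h.le hw)

theorem pr_congr {a a' : ι → H} (h : sp a = sp a') (v : H) : pr a v = pr a' v := by
  rw [pr, Pj_congr h, pr]

theorem pr_map (U : H →ₗᵢ[ℂ] H') (a : ι → H) (v : H) :
    pr (fun i => U (a i)) (U v) = pr a v := by
  have h : sp (fun i => U (a i)) = (sp a).map U.toLinearMap := by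
    rw [sp, sp, Submodule.map_span, ← Set.range_comp]
    rfl
  have h1 : Pj (fun i => U (a i)) (U v) = U (Pj a v) := by
    refine Submodule.eq_starProjection_of_mem_of_inner_eq_zero
      (h ▸ Submodule.mem_map_of_mem (Pj_mem a v)) fun w hw => ?_
    rw [h] at hw
    obtain ⟨x, hx, rfl⟩ := hw
    rw [← U.map_sub]
    exact (U.inner_map_map _ x).trans (Submodule.starProjection_inner_eq_zero v x hx)
  rw [pr, h1, U.norm_map, pr]

theorem PV.pr_eq {a b u : ι → H} (h : PV a b u) (v : H) : pr b v = ∑ i, ‖⟪u i, v⟫_ℂ‖ ^ 2 := by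
  obtain ⟨c, hc⟩ := (Submodule.mem_span_range_iff_exists_fun ℂ).1 (h.sp.ge (Pj_mem b v))
  rw [pr, ← hc, h.norm_sq]
  refine sum_congr rfl fun i _ => ?_
  have h1 : Pj b (u i) = u i := Submodule.starProjection_eq_self_iff.2 (h.sp.le (mem_sp u i))
  rw [← h.on.inner_right_fintype c i, hc, ← Pj_inner, h1]

variable {I : Type} [DecidableEq I]

theorem hasSum_sq (f : lp (fun _ : I => ℂ) 2) : HasSum (fun i => ‖f i‖ ^ 2) (‖f‖ ^ 2) := by
  simpa using lp.hasSum_norm (p := 2) (by norm_num) f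

theorem norm_inner_e (f : lp (fun _ : I => ℂ) 2) (i : I) :
    ‖⟪f, lp.single 2 i (1 : ℂ)⟫_ℂ‖ = ‖f i‖ := by
  rw [lp.inner_single_right]
  simp

theorem pr_hasSum {a : ι → lp (fun _ : I => ℂ) 2} (ha : LinearIndependent ℂ a) :
    HasSum (fun i : I => pr a (lp.single 2 i 1)) (Fintype.card ι) := by
  obtain ⟨u, h⟩ := exists_pv a ha
  simpa [h.pr_eq, norm_inner_e, h.on.1] using hasSum_sum (s := univ) fun α _ => hasSum_sq (u α)

theorem PV.reiter {a b u : ι → lp (fun _ : I => ℂ) 2} (h : PV a b u) (ha : LinearIndependent ℂ a) :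
    ∑' i : I, |pr a (lp.single 2 i 1) - pr b (lp.single 2 i 1)| ≤ 3 * ∑ α, ‖Qj a (u α)‖ := by
  have hq : (2 : ENNReal).toReal.HolderConjugate (2 : ENNReal).toReal := by
    simpa using Real.HolderConjugate.two_two
  have h1 := (pr_hasSum ha).sub (hasSum_sum (s := univ) fun α _ => hasSum_sq (Pj a (u α)))
  have h2 := hasSum_sum (s := univ) fun α _ =>
    (lp.tsum_mul_le_mul_norm hq (Qj a (u α)) (u α)).1.hasSum.add
      (lp.tsum_mul_le_mul_norm hq (Qj a (u α)) (Pj a (u α))).1.hasSum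
  have h3 : ∀ i, |pr a (lp.single 2 i 1) - pr b (lp.single 2 i 1)| ≤
      (pr a (lp.single 2 i 1) - ∑ α, ‖Pj a (u α) i‖ ^ 2) +
        ∑ α, (‖Qj a (u α) i‖ * ‖u α i‖ + ‖Qj a (u α) i‖ * ‖Pj a (u α) i‖) := fun i => by
    have h4 : ∑ α, ‖Pj a (u α) i‖ ^ 2 ≤ pr a (lp.single 2 i 1) := by
      simpa only [← norm_inner_e, Pj_inner, pr] using
        h.on.sum_inner_products_le (s := univ) (Pj a (lp.single 2 i 1))
    refine (abs_sub_le _ (∑ α, ‖Pj a (u α) i‖ ^ 2) _).trans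
      (add_le_add (abs_of_nonneg (sub_nonneg.2 h4)).le ?_)
    rw [h.pr_eq, ← sum_sub_distrib]
    refine (abs_sum_le_sum_abs _ _).trans (sum_le_sum fun α _ => ?_)
    rw [norm_inner_e, abs_sub_comm, sq_sub_sq, abs_mul, abs_of_nonneg (by positivity), ← mul_add,
      mul_comm, Qj_eq]
    exact mul_le_mul_of_nonneg_right (abs_norm_sub_norm_le _ _) (by positivity)
  refine (Summable.tsum_le_tsum h3 (Summable.of_nonneg_of_le (fun _ => abs_nonneg _) h3
    (h1.add h2).summable) (h1.add h2).summable).trans ?_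
  rw [(h1.add h2).tsum_eq, mul_sum, ← card_univ, ← mul_one ((univ : Finset ι).card : ℝ), ← nsmul_eq_mul, ← sum_const,
    ← sum_sub_distrib, ← sum_add_distrib]
  refine sum_le_sum fun α _ => ?_
  have h5 := (lp.tsum_mul_le_mul_norm hq (Qj a (u α)) (u α)).2
  have h6 := (lp.tsum_mul_le_mul_norm hq (Qj a (u α)) (Pj a (u α))).2
  have h7 : ‖u α‖ ^ 2 = ‖Pj a (u α)‖ ^ 2 + ‖Qj a (u α)‖ ^ 2 :=
    Submodule.norm_sq_eq_add_norm_sq_starProjection _ _
  have h8 := Pj_le a (u α)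
  have h9 := h.le_one α
  rw [h.on.1 α] at h5 h7 h8
  nlinarith [norm_nonneg (Qj a (u α))]

theorem reiter {a b : ι → lp (fun _ : I => ℂ) 2}
    (ha : LinearIndependent ℂ a) (hb : LinearIndependent ℂ b) {k : ℕ} (hk : 1 ≤ k) {s : ℝ}
    (hs : 0 ≤ s) (h : Om k a b ≤ s ^ (2 * k) * (G a * G b)) :
    ∑' i : I, |pr a (lp.single 2 i 1) - pr b (lp.single 2 i 1)| ≤
      3 * (k + Fintype.card ι * s) := by
  obtain ⟨u, hu⟩ := exists_pv a hb
  refine (hu.reiter ha).trans (mul_le_mul_of_nonneg_left ?_ (by norm_num))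
  have h1 : ∑ α, ‖Qj a (u α)‖ ≤ ∑ α, ((if s < ‖Qj a (u α)‖ then 1 else 0) + s) :=
    sum_le_sum fun α _ => by
      have := hu.le_one α
      split_ifs <;> linarith
  rw [sum_add_distrib, sum_boole, sum_const, card_univ, nsmul_eq_mul] at h1
  have h2 : (#{i | s < ‖Qj a (u i)‖} : ℝ) ≤ k := by
    exact_mod_cast (hu.card_lt_of_Om ha hb hk hs h).le
  linarith

end Vale.Agent.P284Z.Ang
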